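import Mathlib

/-!
# A McCoy-type lemma for monoid algebras of unique-product groups

Helper file for P194 (direct finiteness of group algebras).

* `unitCentral m` : the element `m` of a ring is a unit times a central element.
* `mccoy` : if `X * Y = 0` in `Λ[H]`, `H` a unique-product group, `Y ≠ 0`, and all coefficients
  of `X` and `Y` are unit-times-central, then a nonzero central element of `Λ` kills every
  coefficient of `X`.
* `graphHom` : the ring embedding `R[G] → (R[G])[H]` induced by `g ↦ (π g, g)`.
* `directlyFinite_of_central_ker` : if `π : G →* H` has central kernel and `H` has unique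
  products, then `R[G]` is directly finite (`R` a commutative ring).
-/

namespace Vale.Agent.Lib.P194

open MonoidAlgebra

/-- `m` is a unit times a central element. -/
def unitCentral {Λ : Type*} [Ring Λ] (m : Λ) : Prop :=
  ∃ w : Λˣ, ∃ η : Λ, (∀ y, Commute η y) ∧ m = w * η

theorem mccoy_step {Λ : Type*} [Ring Λ] {H : Type*} [Group H] [UniqueProds H]
    (X : MonoidAlgebra Λ H) (w : H → Λˣ) (ζ : H → Λ)
    (hζ : ∀ c y, Commute (ζ c) y) (hX : ∀ c, X.coeff c = w c * ζ c) :
    ∀ n : ℕ, ∀ Y : MonoidAlgebra Λ H, Y.coeff.support.card = n → Y ≠ 0 →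
      (∀ d, unitCentral (Y.coeff d)) → X * Y = 0 →
      ∃ Y' : MonoidAlgebra Λ H, Y' ≠ 0 ∧ (∀ d, unitCentral (Y'.coeff d)) ∧
        ∀ c ∈ X.coeff.support, single 1 (ζ c) * Y' = 0 := by
  classical
  intro n
  induction n using Nat.strong_induction_on with
  | _ n ih =>
    intro Y hn hY0 hYUC hXY
    by_cases hall : ∀ c ∈ X.coeff.support, single 1 (ζ c) * Y = 0
    · exact ⟨Y, hY0, hYUC, hall⟩
    · push Not at hall
      obtain ⟨c1, hc1, hc1Y⟩ := hall
      -- the part of X on the cosets whose central part does not kill Y
      let p : H → Prop := fun c => single 1 (ζ c) * Y ≠ 0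
      let X' : MonoidAlgebra Λ H := ofCoeff (X.coeff.filter p)
      let X'' : MonoidAlgebra Λ H := ofCoeff (X.coeff.filter (fun c => ¬ p c))
      have hsplit : X = X' + X'' := by
        apply coeff_injective
        simp only [X', X'', coeff_add]
        exact (Finsupp.filter_add_filter_not _ _).symm
      have hX''Y : X'' * Y = 0 := by
        rw [← sum_coeff_single X'', Finsupp.sum, Finset.sum_mul]
        apply Finset.sum_eq_zero
        intro c hc
        have hc' : ¬ p c := by
          intro hp
          have h0 : X''.coeff c = 0 :=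
            Finsupp.filter_apply_neg (fun c => ¬ p c) X.coeff (not_not.mpr hp)
          exact (Finsupp.mem_support_iff.mp hc) h0
        have hcoef : X''.coeff c = X.coeff c :=
          Finsupp.filter_apply_pos (fun c => ¬ p c) X.coeff hc'
        have hzero : single 1 (ζ c) * Y = 0 := by
          by_contra h; exact hc' h
        rw [hcoef, hX c]
        have : (single c ((w c : Λ) * ζ c) : MonoidAlgebra Λ H)
            = single c (w c : Λ) * single 1 (ζ c) := by
          rw [single_mul_single, mul_one]
        rw [this, mul_assoc, hzero, mul_zero]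
      have hX'Y : X' * Y = 0 := by
        have : X' * Y = X * Y - X'' * Y := by rw [hsplit]; noncomm_ring
        rw [this, hXY, hX''Y, sub_zero]
      have hA : X'.coeff.support.Nonempty := by
        refine ⟨c1, ?_⟩
        have hp1 : p c1 := hc1Y
        have h1 : X'.coeff c1 = X.coeff c1 := Finsupp.filter_apply_pos p X.coeff hp1
        rw [Finsupp.mem_support_iff, h1]
        exact Finsupp.mem_support_iff.mp hc1
      have hB : Y.coeff.support.Nonempty := by
        rw [Finsupp.support_nonempty_iff]
        intro h; exact hY0 (coeff_injective (by simpa using h))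
      obtain ⟨c0, hc0, d0, hd0, huniq⟩ := UniqueProds.uniqueMul_of_nonempty hA hB
      have hpc0 : p c0 := by
        by_cases hp : p c0
        · exact hp
        · have h0 : X'.coeff c0 = 0 := Finsupp.filter_apply_neg p X.coeff hp
          exact absurd h0 (Finsupp.mem_support_iff.mp hc0)
      have hcoef0 : X'.coeff c0 = X.coeff c0 := Finsupp.filter_apply_pos p X.coeff hpc0
      have hprod := coeff_mul_mul_of_uniqueMul huniq
      rw [hX'Y, hcoef0, hX c0] at hprod
      have hkill : ζ c0 * Y.coeff d0 = 0 := by
        have h1 : (w c0 : Λ) * (ζ c0 * Y.coeff d0) = 0 := by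
          rw [← mul_assoc]; exact hprod.symm
        exact (Units.mul_right_eq_zero (w c0)).mp h1
      let Y2 : MonoidAlgebra Λ H := single 1 (ζ c0) * Y
      have hY2coef : ∀ d, Y2.coeff d = ζ c0 * Y.coeff d :=
        fun d => coeff_single_one_mul Y (ζ c0) d
      have hY2ne : Y2 ≠ 0 := hpc0
      have hY2UC : ∀ d, unitCentral (Y2.coeff d) := by
        intro d
        obtain ⟨u, η, hη, hu⟩ := hYUC d
        refine ⟨u, ζ c0 * η, ?_, ?_⟩
        · intro y
          exact (hζ c0 y).mul_left (hη y)
        · rw [hY2coef, hu, ← mul_assoc, (hζ c0 (u : Λ)).eq, mul_assoc]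
      have hXY2 : X * Y2 = 0 := by
        have hcomm : Commute (single (1 : H) (ζ c0)) X :=
          single_commute (fun m' => Commute.one_left m') (hζ c0) X
        calc X * Y2 = (X * single 1 (ζ c0)) * Y := by rw [mul_assoc]
          _ = (single 1 (ζ c0) * X) * Y := by rw [hcomm.eq]
          _ = 0 := by rw [mul_assoc, hXY, mul_zero]
      have hsub : Y2.coeff.support ⊆ Y.coeff.support.erase d0 := by
        intro d hd
        rw [Finsupp.mem_support_iff, hY2coef] at hd
        rw [Finset.mem_erase, Finsupp.mem_support_iff]
        refine ⟨?_, ?_⟩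
        · rintro rfl; exact hd hkill
        · intro h; rw [h, mul_zero] at hd; exact hd rfl
      have hcard : Y2.coeff.support.card < n := by
        calc Y2.coeff.support.card ≤ (Y.coeff.support.erase d0).card := Finset.card_le_card hsub
          _ < Y.coeff.support.card := Finset.card_erase_lt_of_mem hd0
          _ = n := hn
      exact ih _ hcard Y2 rfl hY2ne hY2UC hXY2

/-- McCoy-type lemma: a right annihilator with unit-times-central coefficients forces a nonzero
central element of the coefficient ring killing all coefficients. -/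
theorem mccoy {Λ : Type*} [Ring Λ] {H : Type*} [Group H] [UniqueProds H]
    (X Y : MonoidAlgebra Λ H) (hXUC : ∀ c, unitCentral (X.coeff c))
    (hYUC : ∀ d, unitCentral (Y.coeff d)) (hY0 : Y ≠ 0) (hXY : X * Y = 0) :
    ∃ η : Λ, η ≠ 0 ∧ (∀ y, Commute η y) ∧ ∀ c, X.coeff c * η = 0 := by
  classical
  choose w ζ hζ hX using hXUC
  obtain ⟨Y', hY'0, hY'UC, hY'⟩ := mccoy_step X w ζ hζ hX _ Y rfl hY0 hYUC hXY
  have hB : Y'.coeff.support.Nonempty := by
    rw [Finsupp.support_nonempty_iff]
    intro h; exact hY'0 (coeff_injective (by simpa using h))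
  obtain ⟨d1, hd1⟩ := hB
  obtain ⟨u, η, hη, hu⟩ := hY'UC d1
  have hη0 : η ≠ 0 := by
    rintro rfl
    rw [Finsupp.mem_support_iff, hu, mul_zero] at hd1
    exact hd1 rfl
  refine ⟨η, hη0, hη, ?_⟩
  intro c
  by_cases hc : c ∈ X.coeff.support
  · have h1 := congrArg (fun Z : MonoidAlgebra Λ H => Z.coeff d1) (hY' c hc)
    simp only [coeff_single_one_mul] at h1
    rw [hu] at h1
    have h2 : (u : Λ) * (ζ c * η) = 0 := by
      rw [← mul_assoc, ← (hζ c (u : Λ)).eq, mul_assoc]
      simpa using h1
    have h3 : ζ c * η = 0 := (Units.mul_right_eq_zero u).mp h2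
    rw [hX c, mul_assoc, h3, mul_zero]
  · rw [Finsupp.notMem_support_iff.mp hc, zero_mul]

section main

variable (R : Type*) [CommRing R] {G H : Type*} [Group G] [Group H]

/-- The graph embedding `R[G] → (R[G])[H]`, `g ↦ (π g) • g`. -/
noncomputable def graphHom (π : G →* H) :
    MonoidAlgebra R G →+* MonoidAlgebra (MonoidAlgebra R G) H :=
  (curryRingEquiv (R := R) (M := H) (N := G)).toRingHom.comp
    (mapDomainRingHom R (π.prod (MonoidHom.id G)))

theorem graphHom_single (π : G →* H) (u : G) (r : R) :
    graphHom R π (single u r) = single (π u) (single u r) := by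
  simp [graphHom, mapDomainRingHom, mapDomain_single]

theorem graphHom_supp (π : G →* H) (x : MonoidAlgebra R G) :
    ∀ c u, ((graphHom R π x).coeff c).coeff u ≠ 0 → π u = c := by
  classical
  induction x using MonoidAlgebra.induction_linear with
  | zero => intro c u h; simp at h
  | add x y hx hy =>
    intro c u h
    rw [map_add] at h
    by_contra hne
    apply h
    have h1 : ((graphHom R π x).coeff c).coeff u = 0 := by
      by_contra h'; exact hne (hx c u h')
    have h2 : ((graphHom R π y).coeff c).coeff u = 0 := by
      by_contra h'; exact hne (hy c u h')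
    simp [h1, h2]
  | single m r =>
    intro c u h
    rw [graphHom_single] at h
    by_cases h1 : π m = c
    · by_cases h2 : m = u
      · rw [← h2]; exact h1
      · exfalso; apply h
        simp [h1, h2]
    · exfalso; apply h
      simp [h1]

theorem graphHom_aug (π : G →* H) (x : MonoidAlgebra R G) :
    ((graphHom R π x).coeff.sum fun _ m => m) = x := by
  classical
  induction x using MonoidAlgebra.induction_linear with
  | zero => simp
  | add x y hx hy =>
    rw [map_add, coeff_add, Finsupp.sum_add_index', hx, hy]
    · intro _; rfl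
    · intro _ _ _; rfl
  | single m r =>
    rw [graphHom_single]
    simp

theorem graphHom_unitCentral (π : G →* H) (hπ : π.ker ≤ Subgroup.center G)
    (x : MonoidAlgebra R G) (c : H) : unitCentral ((graphHom R π x).coeff c) := by
  classical
  set m := (graphHom R π x).coeff c with hm
  by_cases hm0 : m = 0
  · exact ⟨1, 0, fun y => Commute.zero_left y, by simp [hm0]⟩
  · have hne : m.coeff.support.Nonempty := by
      rw [Finsupp.support_nonempty_iff]
      intro h; exact hm0 (coeff_injective (by simpa using h))
    obtain ⟨g, hg⟩ := hne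
    have hgc : π g = c := graphHom_supp R π x c g (Finsupp.mem_support_iff.mp hg)
    let ζ : MonoidAlgebra R G := single g⁻¹ 1 * m
    have hζc : ∀ y, Commute ζ y := by
      intro y
      rw [← sum_coeff_single ζ, Finsupp.sum]
      apply Commute.sum_left
      intro t ht
      have ht' : ζ.coeff t ≠ 0 := Finsupp.mem_support_iff.mp ht
      have ht2 : m.coeff (g * t) ≠ 0 := by
        have : ζ.coeff t = m.coeff (g * t) := by
          simp [ζ, coeff_single_mul_apply]
        rwa [this] at ht'
      have ht3 : π (g * t) = c := graphHom_supp R π x c (g * t) ht2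
      have ht4 : t ∈ π.ker := by
        rw [MonoidHom.mem_ker]
        rw [map_mul, hgc] at ht3
        exact mul_eq_left.mp ht3
      have ht5 : t ∈ Subgroup.center G := hπ ht4
      apply single_commute
      · intro m'
        exact (Subgroup.mem_center_iff.mp ht5 m').symm
      · intro r'; exact Commute.all _ _
    have hunit1 : (single g (1 : R) : MonoidAlgebra R G) * single g⁻¹ 1 = 1 := by
      simp [single_mul_single, one_def]
    have hunit2 : (single g⁻¹ (1 : R) : MonoidAlgebra R G) * single g 1 = 1 := by
      simp [single_mul_single, one_def]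
    refine ⟨⟨single g 1, single g⁻¹ 1, hunit1, hunit2⟩, ζ, hζc, ?_⟩
    show m = single g 1 * (single g⁻¹ 1 * m)
    rw [← mul_assoc, hunit1, one_mul]

/-- If `π : G →* H` has central kernel and `H` has unique products, then the group algebra
`R[G]` over a commutative ring `R` is directly finite. -/
theorem directlyFinite_of_central_ker [UniqueProds H] (π : G →* H)
    (hπ : π.ker ≤ Subgroup.center G)
    (a b : MonoidAlgebra R G) (hab : a * b = 1) : b * a = 1 := by
  classical
  by_contra hne
  set e : MonoidAlgebra R G := 1 - b * a with he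
  have he0 : e ≠ 0 := by
    intro h; apply hne
    rw [he] at h
    exact (sub_eq_zero.mp h).symm
  have hae : a * e = 0 := by
    rw [he, mul_sub, mul_one, ← mul_assoc, hab, one_mul, sub_self]
  have hY0 : graphHom R π e ≠ 0 := by
    intro h
    apply he0
    rw [← graphHom_aug R π e, h]
    simp
  have hXY : graphHom R π a * graphHom R π e = 0 := by rw [← map_mul, hae, map_zero]
  obtain ⟨η, hη0, hηc, hη⟩ := mccoy (graphHom R π a) (graphHom R π e)
    (graphHom_unitCentral R π hπ a) (graphHom_unitCentral R π hπ e) hY0 hXY
  have haη : a * η = 0 := by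
    conv_lhs => rw [← graphHom_aug R π a]
    rw [Finsupp.sum, Finset.sum_mul]
    exact Finset.sum_eq_zero (fun c _ => hη c)
  apply hη0
  calc η = η * (a * b) := by rw [hab, mul_one]
    _ = (a * η) * b := by rw [← mul_assoc, (hηc a).eq]
    _ = 0 := by rw [haη, zero_mul]

end main

end Vale.Agent.Lib.P194
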